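import Vale.Agent.P002.Prod.Orb

/-!
Potential density of integral points for products of orbifold curves, curves and finite cyclic
factors.
-/

namespace Vale.Agent.Results.P002.OrbifoldProducts

open Matrix Vale.Agent.P002

/-- A product of surface groups, free groups and infinite cyclic groups. -/
abbrev Gam {k l : ℕ} (n s : Fin k → ℕ) (d : Fin l → ℕ) (p : ℕ) : Type :=
  ((∀ i, Surf (n i) (s i)) × (∀ j, FreeGroup (Fin (d j)))) × (Fin p → Multiplicative ℤ)

variable {k l p r : ℕ} {n s : Fin k → ℕ} {d : Fin l → ℕ}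

/-- A puncture with `o = 0` goes into its class, one with `o > 0` has order dividing `o`, and the
generator of the cyclic factor `q` has order dividing `e q`. -/
def Cond (K : ∀ i, Fin (s i) → SpecialLinearGroup (Fin r) ℂ) (o : ∀ i, Fin (s i) → ℕ)
    (e : Fin p → ℕ) (ρ : Gam n s d p →* SpecialLinearGroup (Fin r) ℂ) : Prop :=
  (∀ i j, (o i j = 0 →
      ∃ T, ρ ((Pi.mulSingle i (surfMark (n i) (s i) j), 1), 1) = T * K i j * T⁻¹) ∧
    ρ ((Pi.mulSingle i (surfMark (n i) (s i) j), 1), 1) ^ o i j = 1) ∧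
  ∀ q, ρ (1, Pi.mulSingle q (Multiplicative.ofAdd 1)) ^ e q = 1

/-- All entries are algebraic integers of `L`. -/
def IntIn (L : IntermediateField ℚ ℂ) (ρ : Gam n s d p →* SpecialLinearGroup (Fin r) ℂ) : Prop :=
  ∀ g a b, (ρ g).1 a b ∈ L ∧ IsIntegral ℤ ((ρ g).1 a b)

/-- Every invariant subspace has an invariant complement. -/
def Semisimple (ρ : Gam n s d p →* SpecialLinearGroup (Fin r) ℂ) : Prop :=
  ∀ W : Submodule ℂ (Fin r → ℂ), (∀ g, ∀ v ∈ W, (ρ g).1 *ᵥ v ∈ W) →
    ∃ W' : Submodule ℂ (Fin r → ℂ), (∀ g, ∀ v ∈ W', (ρ g).1 *ᵥ v ∈ W') ∧ IsCompl W W'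

/-- The value of a polynomial in the entries. -/
noncomputable def value (f : MvPolynomial (Gam n s d p × Fin r × Fin r) ℂ)
    (ρ : Gam n s d p →* SpecialLinearGroup (Fin r) ℂ) : ℂ :=
  MvPolynomial.eval (fun v => (ρ v.1).1 v.2.1 v.2.2) f

/-- Taking equal values at conjugate representations satisfying the conditions. -/
def ConjInvariant (K : ∀ i, Fin (s i) → SpecialLinearGroup (Fin r) ℂ) (o : ∀ i, Fin (s i) → ℕ)
    (e : Fin p → ℕ) (f : MvPolynomial (Gam n s d p × Fin r × Fin r) ℂ) : Prop :=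
  ∀ ρ : Gam n s d p →* SpecialLinearGroup (Fin r) ℂ, Cond K o e ρ →
    ∀ T : SpecialLinearGroup (Fin r) ℂ,
      MvPolynomial.eval (fun v => (T * ρ v.1 * T⁻¹).1 v.2.1 v.2.2) f = value f ρ

/-- For products of orbifold surface groups of genus at least three, closed surface groups of genus
at least two, free groups and finite cyclic groups, with quasi-unipotent classes at the remaining
loops around punctures: one number field has the semisimple representations over its integers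
Zariski dense among all semisimple representations with these classes. -/
theorem result (k l p m : ℕ) (n s : Fin k → ℕ)
    (hns : ∀ i, 3 ≤ n i ∨ (2 ≤ n i ∧ s i = 0)) (d : Fin l → ℕ) (e : Fin p → ℕ)
    (he : ∀ q, 0 < e q) (o : ∀ i, Fin (s i) → ℕ)
    (K : ∀ i, Fin (s i) → SpecialLinearGroup (Fin (m + 2)) ℂ)
    (hK : ∀ i j, o i j = 0 →
      ∀ z : ℂ, (K i j).1.charpoly.IsRoot z → ∃ N : ℕ, 0 < N ∧ z ^ N = 1) :
    ∃ L : IntermediateField ℚ ℂ, FiniteDimensional ℚ L ∧
      ∀ f : MvPolynomial (Gam n s d p × Fin (m + 2) × Fin (m + 2)) ℂ, ConjInvariant K o e f →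
        (∀ ρ, Cond K o e ρ → IntIn L ρ → Semisimple ρ → value f ρ = 0) →
        ∀ ρ, Cond K o e ρ → Semisimple ρ → value f ρ = 0 := by
  let o' : ((Σ i, Fin (s i)) ⊕ (Σ _ : Fin l, Fin 0)) ⊕ (Σ _ : Fin p, Unit) → ℕ :=
    Sum.elim (Sum.elim (fun x => o x.1 x.2) fun x => x.2.elim0) fun x => e x.1
  let K' : ((Σ i, Fin (s i)) ⊕ (Σ _ : Fin l, Fin 0)) ⊕ (Σ _ : Fin p, Unit) →
      SpecialLinearGroup (Fin (m + 2)) ℂ :=
    Sum.elim (Sum.elim (fun x => K x.1 x.2) fun x => x.2.elim0) fun _ => 1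
  obtain ⟨L, hL, h⟩ := sl_density_orb (nice_products_int (p := p) n s hns d) (Nat.succ_pos (m + 1))
    K' o' (by
      rintro ((x | x) | x) hx
      · exact hK x.1 x.2 hx
      · exact x.2.elim0
      · exact absurd hx (he x.1).ne')
  have hcl : ∀ ρ : Gam n s d p →* SpecialLinearGroup (Fin (m + 2)) ℂ,
      OrbCond (prodMark
        (prodMark (piMark fun i => surfMark (n i) (s i)) (piMark fun j => freeMark (d j)))
        (piMark fun _ : Fin p => intMark)) K' o' ρ ↔ Cond K o e ρ := by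
    intro ρ
    refine ⟨fun h => ⟨fun i j => h (Sum.inl (Sum.inl ⟨i, j⟩)),
      fun q => (h (Sum.inr ⟨q, ()⟩)).2⟩, fun h x => ?_⟩
    rcases x with (⟨i, j⟩ | x) | ⟨q, u⟩
    · exact h.1 i j
    · exact x.2.elim0
    · exact ⟨fun hx => absurd hx (he q).ne', h.2 q⟩
  exact ⟨L, hL, fun f hinv hf ρ hρ hss =>
    h f (fun σ hσ hint hs => hf σ ((hcl σ).1 hσ) hint hs)
      (fun σ hσ T => hinv σ ((hcl σ).1 hσ) T) ρ ((hcl ρ).2 hρ) hss⟩

end Vale.Agent.Results.P002.OrbifoldProducts
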